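import Vale.Agent.P090.Bridge

namespace Vale.Agent.Results.P090.UDFreeSpaceFailsBAP

open Vale.Agent.P090

/-- A uniformly discrete metric space whose Lipschitz-free space fails the bounded
approximation property. -/
theorem result : ∃ (M : Type) (_ : MetricSpace M) (o : M),
    (∃ c : ℝ, 0 < c ∧ ∀ x y : M, x ≠ y → c ≤ dist x y) ∧ ¬ HasBAP (FreeSpace M o) :=
  ⟨Space, inferInstance, none, ⟨1, one_pos, fun _ _ h => one_le_dist h⟩, not_hasBAP⟩

end Vale.Agent.Results.P090.UDFreeSpaceFailsBAP
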